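import Vale.Agent.P156.H943.Cut

/-! Stability of the resolvent under perturbations of finite rank (fixed-energy upgrade, D2). -/

open Matrix Finset

namespace Vale.Agent.P156.H558

open Vale.Agent.P156.H801 (rs)

variable {V : Type*} [Fintype V] [DecidableEq V]

/-- The resolvents of `A` and `A'` at `z` differ by at most `(u x + u y) / 2` with
`∑ u ≤ r / Im z`. -/
def Cmp (z : ℂ) (r : ℝ) (A A' : Matrix V V ℝ) : Prop :=
  ∃ u : V → ℝ, (∀ x, 0 ≤ u x) ∧ ∑ x, u x ≤ r / z.im ∧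
    ∀ x y, ‖rs A' z x y - rs A z x y‖ ≤ (u x + u y) / 2

theorem Cmp.refl (z : ℂ) (A : Matrix V V ℝ) : Cmp z 0 A A :=
  ⟨fun _ => 0, fun _ => le_rfl, by simp, fun x y => by simp⟩

theorem Cmp.trans {z : ℂ} {r r' : ℝ} {A A' A'' : Matrix V V ℝ} (h : Cmp z r A A')
    (h' : Cmp z r' A' A'') : Cmp z (r + r') A A'' := by
  obtain ⟨u, hu0, hu, hxy⟩ := h
  obtain ⟨u', hu0', hu', hxy'⟩ := h'
  refine ⟨fun x => u x + u' x, fun x => add_nonneg (hu0 x) (hu0' x), ?_, ?_⟩
  · rw [Finset.sum_add_distrib, add_div]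
    exact add_le_add hu hu'
  · intro x y
    have h1 : rs A'' z x y - rs A z x y =
        (rs A'' z x y - rs A' z x y) + (rs A' z x y - rs A z x y) := by ring
    rw [h1]
    refine (norm_add_le _ _).trans ?_
    have := hxy x y
    have := hxy' x y
    linarith

theorem rs_symm {A : Matrix V V ℝ} (hA : A.IsHermitian) (z : ℂ) : (rs A z)ᵀ = rs A z := by
  have hAt : Aᵀ = A := by
    have := hA
    rwa [Matrix.IsHermitian, conjTranspose_eq_transpose_of_trivial] at this
  rw [rs, transpose_nonsing_inv, transpose_sub, transpose_smul, transpose_one, ← transpose_map,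
    hAt]

/-- Ward identity for a real vector. -/
theorem im_quad {A : Matrix V V ℝ} (hA : A.IsHermitian) {z : ℂ} {g a : V → ℂ}
    (ha : ∀ x, (starRingEnd ℂ) (a x) = a x)
    (hg : (A.map Complex.ofReal - z • (1 : Matrix V V ℂ)) *ᵥ g = a) :
    (a ⬝ᵥ g).im = z.im * ∑ x, ‖g x‖ ^ 2 := by
  have hAs : ∀ x y, A y x = A x y := by
    intro x y
    have := congrFun (congrFun hA x) y
    simpa using this
  have h1 : ∀ x, a x = (∑ y, (A x y : ℂ) * g y) - z * g x := by
    intro x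
    have := congrFun hg x
    rw [sub_mulVec, Pi.sub_apply, smul_mulVec, one_mulVec, Pi.smul_apply, smul_eq_mul] at this
    rw [← this]
    rfl
  have h2 : a ⬝ᵥ g = (∑ x, ∑ y, (A x y : ℂ) * (starRingEnd ℂ) (g y) * g x) -
      (starRingEnd ℂ) z * ∑ x, ((‖g x‖ ^ 2 : ℝ) : ℂ) := by
    rw [dotProduct, Finset.mul_sum, ← Finset.sum_sub_distrib]
    refine Finset.sum_congr rfl fun x _ => ?_
    rw [← ha x, h1 x, map_sub, map_sum, map_mul, sub_mul, Finset.sum_mul]
    congr 1
    · refine Finset.sum_congr rfl fun y _ => ?_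
      rw [map_mul, Complex.conj_ofReal]
    · have : ((‖g x‖ ^ 2 : ℝ) : ℂ) = (starRingEnd ℂ) (g x) * g x := by
        rw [mul_comm, Complex.mul_conj, Complex.normSq_eq_norm_sq]
      rw [this]
      ring
  have h3 : (∑ x, ∑ y, (A x y : ℂ) * (starRingEnd ℂ) (g y) * g x).im = 0 := by
    rw [← Complex.conj_eq_iff_im, map_sum]
    simp only [map_sum, map_mul, Complex.conj_ofReal, Complex.conj_conj]
    rw [Finset.sum_comm]
    refine Finset.sum_congr rfl fun x _ => Finset.sum_congr rfl fun y _ => ?_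
    rw [hAs]
    ring
  rw [h2, Complex.sub_im, h3, ← Complex.ofReal_sum, Complex.mul_im, Complex.ofReal_im,
    Complex.ofReal_re, Complex.conj_im]
  ring

theorem isUnit_rs {A : Matrix V V ℝ} (hA : A.IsHermitian) {z : ℂ} (hz : z.im ≠ 0) :
    IsUnit (A.map Complex.ofReal - z • (1 : Matrix V V ℂ)).det :=
  H801.isUnit_det hA (H801.sub_ne_zero_of_im hA hz)

theorem cmp_rankOne {A : Matrix V V ℝ} (hA : A.IsHermitian) {z : ℂ} (hz : 0 < z.im) (c : ℝ)
    (a : V → ℝ) : Cmp z 1 A (A + c • vecMulVec a a) := by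
  have hA' : (A + c • vecMulVec a a).IsHermitian := by
    refine hA.add ?_
    ext x y
    simp [vecMulVec_apply, mul_comm]
  have hM := isUnit_rs hA hz.ne'
  have hM' := isUnit_rs hA' hz.ne'
  set M : Matrix V V ℂ := A.map Complex.ofReal - z • (1 : Matrix V V ℂ) with hMdef
  set M' : Matrix V V ℂ := (A + c • vecMulVec a a).map Complex.ofReal - z • (1 : Matrix V V ℂ)
    with hMdef'
  have hR : rs A z = M⁻¹ := rfl
  have hR' : rs (A + c • vecMulVec a a) z = M'⁻¹ := rfl
  set ac : V → ℂ := fun x => (a x : ℂ) with hac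
  have hMM : M' = M + (c : ℂ) • vecMulVec ac ac := by
    rw [hMdef, hMdef']
    ext x y
    simp [vecMulVec_apply, hac]
    ring
  set g : V → ℂ := M⁻¹ *ᵥ ac with hg
  have hMg : M *ᵥ g = ac := by
    rw [hg, mulVec_mulVec, mul_nonsing_inv _ hM, one_mulVec]
  have hsymm : ac ᵥ* M⁻¹ = g := by
    have : (M⁻¹)ᵀ = M⁻¹ := rs_symm hA z
    rw [hg, ← vecMul_transpose, this]
  set τ : ℂ := ac ⬝ᵥ g with hτ
  have hIm : τ.im = z.im * ∑ x, ‖g x‖ ^ 2 :=
    im_quad hA (fun x => Complex.conj_ofReal _) hMg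
  -- the resolvent identity
  have hid : M'⁻¹ = M⁻¹ - (c : ℂ) • vecMulVec (M'⁻¹ *ᵥ ac) g := by
    have h1 : M'⁻¹ * M' * M⁻¹ = M⁻¹ := by rw [nonsing_inv_mul _ hM', Matrix.one_mul]
    rw [hMM, Matrix.mul_add, Matrix.add_mul, ← hMM, Matrix.mul_assoc, mul_nonsing_inv _ hM,
      Matrix.mul_one, Matrix.mul_smul, Matrix.smul_mul, mul_vecMulVec, vecMulVec_mul, hsymm] at h1
    rw [← h1]
    abel_nf
  have hga : (1 + (c : ℂ) * τ) • (M'⁻¹ *ᵥ ac) = g := by
    have h1 := congrArg (fun X => X *ᵥ ac) hid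
    simp only [sub_mulVec, smul_mulVec, vecMulVec_mulVec] at h1
    have h2 : g ⬝ᵥ ac = τ := by rw [hτ, dotProduct_comm]
    rw [h2] at h1
    ext x
    have h3 := congrFun h1 x
    simp only [Pi.sub_apply, Pi.smul_apply, smul_eq_mul, MulOpposite.smul_eq_mul_unop,
      MulOpposite.unop_op] at h3
    rw [Pi.smul_apply, smul_eq_mul, ← hg] at *
    linear_combination h3
  have hne : 1 + (c : ℂ) * τ ≠ 0 := by
    intro h0
    rw [h0, zero_smul] at hga
    have h1 : τ = 0 := by rw [hτ, ← hga, dotProduct_zero]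
    rw [h1, mul_zero, add_zero] at h0
    exact one_ne_zero h0
  have hxy : ∀ x y, M'⁻¹ x y - M⁻¹ x y = - (c : ℂ) * (g x * g y) / (1 + (c : ℂ) * τ) := by
    intro x y
    rw [eq_div_iff hne]
    have h1 : M'⁻¹ x y = M⁻¹ x y - (c : ℂ) * ((M'⁻¹ *ᵥ ac) x * g y) := by
      conv_lhs => rw [hid]
      rfl
    have h2 := congrFun hga x
    rw [Pi.smul_apply, smul_eq_mul] at h2
    rw [h1, ← h2]
    ring
  have hnpos : 0 < ‖1 + (c : ℂ) * τ‖ := norm_pos_iff.mpr hne
  refine ⟨fun x => |c| / ‖1 + (c : ℂ) * τ‖ * ‖g x‖ ^ 2, fun x => by positivity, ?_, ?_⟩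
  · rw [← Finset.mul_sum, div_mul_eq_mul_div, div_le_div_iff₀ hnpos hz, one_mul]
    have h1 : |(1 + (c : ℂ) * τ).im| ≤ ‖1 + (c : ℂ) * τ‖ := Complex.abs_im_le_norm _
    have h2 : (1 + (c : ℂ) * τ).im = c * τ.im := by simp
    rw [h2, hIm, abs_mul, abs_of_nonneg (by positivity : 0 ≤ z.im * ∑ x, ‖g x‖ ^ 2)] at h1
    calc |c| * (∑ x, ‖g x‖ ^ 2) * z.im = |c| * (z.im * ∑ x, ‖g x‖ ^ 2) := by ring
      _ ≤ _ := h1
  · intro x y
    rw [hR, hR', hxy, norm_div, norm_mul, norm_mul, norm_neg, Complex.norm_real, Real.norm_eq_abs]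
    have h1 : ‖g x‖ * ‖g y‖ ≤ (‖g x‖ ^ 2 + ‖g y‖ ^ 2) / 2 := by nlinarith [sq_nonneg (‖g x‖ - ‖g y‖)]
    have h2 : |c| * (‖g x‖ * ‖g y‖) / ‖1 + (c : ℂ) * τ‖ =
        |c| / ‖1 + (c : ℂ) * τ‖ * (‖g x‖ * ‖g y‖) := by ring
    rw [h2]
    have h3 : 0 ≤ |c| / ‖1 + (c : ℂ) * τ‖ := by positivity
    calc _ ≤ |c| / ‖1 + (c : ℂ) * τ‖ * ((‖g x‖ ^ 2 + ‖g y‖ ^ 2) / 2) :=
          mul_le_mul_of_nonneg_left h1 h3
      _ = _ := by ring

/-- The symmetric perturbation on a pair of indices. -/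
noncomputable def pairM (x y : V) : Matrix V V ℝ :=
  vecMulVec (Pi.single x 1) (Pi.single y 1) + vecMulVec (Pi.single y 1) (Pi.single x 1)

omit [Fintype V] in
theorem pairM_apply (x y a b : V) : pairM x y a b =
    (if (x, y) = (a, b) then (1 : ℝ) else 0) + (if (x, y) = (b, a) then 1 else 0) := by
  simp only [pairM, Matrix.add_apply, vecMulVec_apply, Pi.single_apply, Prod.mk.injEq]
  congr 1
  · by_cases h1 : a = x
    · subst h1
      by_cases h2 : b = y
      · subst h2; simp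
      · simp [h2, Ne.symm h2]
    · simp [h1, Ne.symm h1]
  · by_cases h1 : a = y
    · subst h1
      by_cases h2 : b = x
      · subst h2; simp
      · simp [h2, Ne.symm h2]
    · simp [h1, Ne.symm h1]

omit [Fintype V] in
theorem pairM_eq (x y : V) : pairM x y =
    (1 / 2 : ℝ) • vecMulVec (Pi.single x 1 + Pi.single y 1 : V → ℝ)
      (Pi.single x 1 + Pi.single y 1) +
    (-(1 / 2) : ℝ) • vecMulVec (Pi.single x 1 - Pi.single y 1 : V → ℝ)
      (Pi.single x 1 - Pi.single y 1) := by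
  ext a b
  simp only [pairM, Matrix.add_apply, Matrix.smul_apply, vecMulVec_apply,
    Pi.add_apply, Pi.sub_apply, smul_eq_mul]
  ring

omit [Fintype V] [DecidableEq V] in
theorem isHermitian_smul_vecMulVec (c : ℝ) (a : V → ℝ) : (c • vecMulVec a a).IsHermitian := by
  ext x y
  simp [vecMulVec_apply, mul_comm]

theorem cmp_pair {A : Matrix V V ℝ} (hA : A.IsHermitian) {z : ℂ} (hz : 0 < z.im) (s : ℝ)
    (x y : V) : Cmp z 2 A (A + s • pairM x y) := by
  have h1 := cmp_rankOne hA hz (s / 2) (Pi.single x 1 + Pi.single y 1 : V → ℝ)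
  have h2 := cmp_rankOne (hA.add (isHermitian_smul_vecMulVec (s / 2)
    (Pi.single x 1 + Pi.single y 1 : V → ℝ))) hz (-(s / 2)) (Pi.single x 1 - Pi.single y 1 : V → ℝ)
  have h3 := h1.trans h2
  have h4 : A + (s / 2) • vecMulVec (Pi.single x 1 + Pi.single y 1 : V → ℝ)
      (Pi.single x 1 + Pi.single y 1) + (-(s / 2)) • vecMulVec
      (Pi.single x 1 - Pi.single y 1 : V → ℝ) (Pi.single x 1 - Pi.single y 1) =
      A + s • pairM x y := by
    rw [pairM_eq, smul_add, smul_smul, smul_smul, add_assoc]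
    congr 3
    · congr 1; ring
    · congr 1; ring
  rw [h4] at h3
  norm_num at h3
  exact h3

/-- Two real symmetric matrices which differ only in rows and columns of a small set. -/
theorem cmp_of_support {A A' : Matrix V V ℝ} (hA : A.IsHermitian) (hA' : A'.IsHermitian) {z : ℂ}
    (hz : 0 < z.im) (D : Finset V) (h : ∀ x y, A' x y ≠ A x y → x ∈ D ∧ y ∈ D) :
    Cmp z (2 * (D.card : ℝ) ^ 2) A A' := by
  have hsA : ∀ x y, A y x = A x y := fun x y => by
    simpa using congrFun (congrFun hA x) y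
  have hsA' : ∀ x y, A' y x = A' x y := fun x y => by
    simpa using congrFun (congrFun hA' x) y
  -- induction over the ordered pairs
  have key : ∀ T : Finset (V × V), Cmp z (2 * (T.card : ℝ)) A
      (A + ∑ p ∈ T, ((A' p.1 p.2 - A p.1 p.2) / 2) • pairM p.1 p.2) ∧
      (A + ∑ p ∈ T, ((A' p.1 p.2 - A p.1 p.2) / 2) • pairM p.1 p.2).IsHermitian := by
    intro T
    induction T using Finset.induction_on with
    | empty => simpa using ⟨Cmp.refl z A, hA⟩
    | insert p T hp ih =>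
      have h1 := cmp_pair ih.2 hz ((A' p.1 p.2 - A p.1 p.2) / 2) p.1 p.2
      have h2 := ih.1.trans h1
      rw [Finset.sum_insert hp, Finset.card_insert_of_notMem hp]
      have h3 : A + (((A' p.1 p.2 - A p.1 p.2) / 2) • pairM p.1 p.2 +
          ∑ p ∈ T, ((A' p.1 p.2 - A p.1 p.2) / 2) • pairM p.1 p.2) =
          A + ∑ p ∈ T, ((A' p.1 p.2 - A p.1 p.2) / 2) • pairM p.1 p.2 +
          ((A' p.1 p.2 - A p.1 p.2) / 2) • pairM p.1 p.2 := by abel
      rw [h3]
      refine ⟨?_, ?_⟩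
      · push_cast
        rw [show 2 * ((T.card : ℝ) + 1) = 2 * T.card + 2 by ring]
        exact h2
      · refine ih.2.add ?_
        ext a b
        simp only [conjTranspose_apply, star_trivial, Matrix.smul_apply, pairM_apply, smul_eq_mul]
        rw [add_comm (if (p.1, p.2) = (b, a) then (1 : ℝ) else 0)]
  have hfin : A + ∑ p ∈ D ×ˢ D, ((A' p.1 p.2 - A p.1 p.2) / 2) • pairM p.1 p.2 = A' := by
    ext a b
    rw [Matrix.add_apply, Matrix.sum_apply]
    have h1 : ∀ p ∈ D ×ˢ D, (((A' p.1 p.2 - A p.1 p.2) / 2) • pairM p.1 p.2) a b =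
        (if p = (a, b) then (A' a b - A a b) / 2 else 0) +
        (if p = (b, a) then (A' a b - A a b) / 2 else 0) := by
      intro p _
      simp only [Matrix.smul_apply, pairM_apply, smul_eq_mul, mul_add]
      congr 1
      · by_cases h : p = (a, b)
        · subst h; simp
        · rw [if_neg h, if_neg h, mul_zero]
      · by_cases h : p = (b, a)
        · subst h; simp [hsA a b, hsA' a b]
        · rw [if_neg h, if_neg h, mul_zero]
    rw [Finset.sum_congr rfl h1, Finset.sum_add_distrib, Finset.sum_ite_eq', Finset.sum_ite_eq']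
    by_cases hab : A' a b = A a b
    · rw [hab]; simp
    · obtain ⟨ha, hb⟩ := h a b hab
      rw [if_pos (Finset.mem_product.mpr ⟨ha, hb⟩), if_pos (Finset.mem_product.mpr ⟨hb, ha⟩)]
      ring
  have h1 := (key (D ×ˢ D)).1
  rw [hfin, Finset.card_product] at h1
  push_cast at h1
  rwa [← pow_two] at h1

end Vale.Agent.P156.H558
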