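import Vale.Agent.P156.FE.Spec
import Vale.Agent.P156.H558.Rank

/-! FE4: the observable `VV` is stable under local changes of the graph. -/

open MeasureTheory Filter Topology Matrix Finset

namespace Vale.Agent.P156.H558

open Vale.Agent.P156.H801 (rs)

theorem min_sq_le {ι : Type*} [Fintype ι] (u v : ι → ℂ) :
    min 1 (∑ i, ‖u i‖ ^ 2) - min 1 (∑ i, ‖v i‖ ^ 2) ≤ 3 * ∑ i, ‖u i - v i‖ := by
  have hpos : 0 ≤ ∑ i, ‖u i - v i‖ := Finset.sum_nonneg fun i _ => norm_nonneg _
  by_cases h : (1 : ℝ) / 3 ≤ ∑ i, ‖u i - v i‖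
  · have h1 : min 1 (∑ i, ‖u i‖ ^ 2) ≤ 1 := min_le_left _ _
    have h2 : 0 ≤ min 1 (∑ i, ‖v i‖ ^ 2) :=
      le_min zero_le_one (Finset.sum_nonneg fun i _ => by positivity)
    linarith
  · push Not at h
    rcases le_or_gt 1 (∑ i, ‖v i‖ ^ 2) with hv | hv
    · rw [min_eq_left hv]
      have h1 : min 1 (∑ i, ‖u i‖ ^ 2) ≤ 1 := min_le_left _ _
      linarith
    · rw [min_eq_right hv.le]
      have h1 : min 1 (∑ i, ‖u i‖ ^ 2) ≤ ∑ i, ‖u i‖ ^ 2 := min_le_right _ _
      have h2 : ∀ i, ‖v i‖ ≤ 1 := by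
        intro i
        have : ‖v i‖ ^ 2 ≤ ∑ i, ‖v i‖ ^ 2 :=
          Finset.single_le_sum (f := fun i => ‖v i‖ ^ 2) (fun i _ => by positivity)
            (Finset.mem_univ i)
        nlinarith [norm_nonneg (v i)]
      have h3 : ∀ i, ‖u i - v i‖ ≤ 1 / 3 := by
        intro i
        have : ‖u i - v i‖ ≤ ∑ i, ‖u i - v i‖ :=
          Finset.single_le_sum (f := fun i => ‖u i - v i‖) (fun i _ => norm_nonneg _)
            (Finset.mem_univ i)
        linarith
      have h4 : ∑ i, ‖u i‖ ^ 2 - ∑ i, ‖v i‖ ^ 2 ≤ 3 * ∑ i, ‖u i - v i‖ := by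
        rw [← Finset.sum_sub_distrib, Finset.mul_sum]
        refine Finset.sum_le_sum fun i _ => ?_
        have h5 : ‖u i‖ ≤ ‖v i‖ + ‖u i - v i‖ := by
          have := norm_add_le (v i) (u i - v i)
          simpa using this
        have h6 := norm_nonneg (u i - v i)
        have h7 := norm_nonneg (v i)
        have h8 := norm_nonneg (u i)
        have h9 := h2 i
        have h10 := h3 i
        have h11 : ‖u i‖ ^ 2 ≤ (‖v i‖ + ‖u i - v i‖) ^ 2 := pow_le_pow_left₀ h8 h5 2
        nlinarith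
      linarith

theorem abs_min_sq_le {ι : Type*} [Fintype ι] (u v : ι → ℂ) :
    |min 1 (∑ i, ‖u i‖ ^ 2) - min 1 (∑ i, ‖v i‖ ^ 2)| ≤ 3 * ∑ i, ‖u i - v i‖ := by
  rw [abs_le]
  constructor
  · have h := min_sq_le v u
    have : ∑ i, ‖v i - u i‖ = ∑ i, ‖u i - v i‖ := by
      refine Finset.sum_congr rfl fun i _ => ?_
      rw [norm_sub_rev]
    rw [this] at h
    linarith
  · exact min_sq_le u v

theorem resD_empty {n : ℕ} (A : Matrix (Fin n) (Fin n) ℝ) (z : ℂ) : resD A ∅ z = rs A z := by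
  rw [resD, rs]
  congr 1
  ext x y
  simp only [cutMat, Finset.notMem_empty, or_self, if_false, Matrix.sub_apply, Matrix.map_apply,
    Matrix.smul_apply, Matrix.one_apply, smul_eq_mul]
  congr 1
  split_ifs <;> simp

theorem starMat_one {n d : ℕ} (G : SimpleGraph (Fin n)) (t : Fin n × (Fin d → Fin n)) (z : ℂ)
    (x y : Fin 1 × Option (Fin d)) :
    starMat (FE.one G t) z x y = rs (adj G) z (B.pos t x.2) (B.pos t y.2) := by
  rw [← resD_empty]
  rfl

theorem dev_one {n d : ℕ} (G : SimpleGraph (Fin n)) (t : Fin n × (Fin d → Fin n)) (z : ℂ) :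
    FE.dev (FE.one G t) z = min 1 (∑ p : (Fin 1 × Option (Fin d)) × (Fin 1 × Option (Fin d)),
      ‖rs (adj G) z (B.pos t p.1.2) (B.pos t p.2.2) -
        H520.Kz d z (FE.mm d z) 1 p.1 p.2‖ ^ 2) := by
  rw [FE.dev]
  conv_rhs => rw [Fintype.sum_prod_type]
  simp only [starMat_one]

theorem dev_nonneg {n d K : ℕ} (ω : SimpleGraph (Fin n) × StarPos n d K) (z : ℂ) :
    0 ≤ FE.dev ω z :=
  le_min zero_le_one (Finset.sum_nonneg fun _ _ => Finset.sum_nonneg fun _ _ => by positivity)

theorem dev_le_one {n d K : ℕ} (ω : SimpleGraph (Fin n) × StarPos n d K) (z : ℂ) :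
    FE.dev ω z ≤ 1 := min_le_left _ _

theorem dev_diff {n d : ℕ} {G G' : SimpleGraph (Fin n)} {z : ℂ} {u : Fin n → ℝ}
    (hu : ∀ x y, ‖rs (adj G') z x y - rs (adj G) z x y‖ ≤ (u x + u y) / 2)
    (t : Fin n × (Fin d → Fin n)) :
    |FE.dev (FE.one G t) z - FE.dev (FE.one G' t) z| ≤
      3 * ((d : ℝ) + 1) * ∑ o : Option (Fin d), u (B.pos t o) := by
  rw [dev_one, dev_one]
  refine (abs_min_sq_le _ _).trans ?_
  rw [mul_assoc]
  refine mul_le_mul_of_nonneg_left ?_ (by norm_num)
  have h1 : ∀ p : (Fin 1 × Option (Fin d)) × (Fin 1 × Option (Fin d)),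
      ‖rs (adj G) z (B.pos t p.1.2) (B.pos t p.2.2) - H520.Kz d z (FE.mm d z) 1 p.1 p.2 -
        (rs (adj G') z (B.pos t p.1.2) (B.pos t p.2.2) - H520.Kz d z (FE.mm d z) 1 p.1 p.2)‖ ≤
      (u (B.pos t p.1.2) + u (B.pos t p.2.2)) / 2 := by
    intro p
    rw [sub_sub_sub_cancel_right, norm_sub_rev]
    exact hu _ _
  refine (Finset.sum_le_sum fun p _ => h1 p).trans ?_
  rw [Fintype.sum_prod_type]
  simp only [Fintype.sum_prod_type, Finset.univ_unique, Finset.sum_singleton]
  have h2 : ∑ x : Option (Fin d), ∑ y : Option (Fin d), (u (B.pos t x) + u (B.pos t y)) / 2 =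
      ((d : ℝ) + 1) * ∑ o : Option (Fin d), u (B.pos t o) := by
    have hc : ∀ x : Option (Fin d), ∑ y : Option (Fin d), (u (B.pos t x) + u (B.pos t y)) / 2 =
        (((d : ℝ) + 1) * u (B.pos t x) + ∑ y : Option (Fin d), u (B.pos t y)) / 2 := by
      intro x
      rw [← Finset.sum_div, Finset.sum_add_distrib, Finset.sum_const, Finset.card_univ,
        Fintype.card_option, Fintype.card_fin, nsmul_eq_mul]
      push_cast
      rfl
    simp only [hc]
    rw [← Finset.sum_div, Finset.sum_add_distrib, ← Finset.mul_sum, Finset.sum_const,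
      Finset.card_univ, Fintype.card_option, Fintype.card_fin, nsmul_eq_mul]
    push_cast
    ring
  exact h2.le

theorem card_stars_pos {n d : ℕ} {G : SimpleGraph (Fin n)} (hG : B.Reg d G) :
    ((B.stars d G).card : ℝ) = d.factorial * n := by
  rw [B.card_stars hG, Fintype.card_fin]

/-- FE4. -/
theorem specVnear (d : ℕ) (a b : ℝ) : FE.SpecVnear d a b := by
  classical
  intro k
  refine ⟨(k : ℝ) + 3 * ((d : ℝ) + 1) ^ 2 * (2 * (k : ℝ) ^ 2), ?_⟩
  intro n G hG G' hG' hnear E _ η hη hη1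
  rcases Nat.eq_zero_or_pos n with rfl | hn
  · have h0 : ∀ H : SimpleGraph (Fin 0), FE.VV d H (FE.zz E η) = 0 := by
      intro H
      have : B.stars d H = ∅ := by
        rw [Finset.eq_empty_iff_forall_notMem]
        intro t _
        exact t.1.elim0
      rw [FE.VV, this]
      simp [avg]
    rw [h0, h0]
    simp
  have hnR : (0 : ℝ) < n := by exact_mod_cast hn
  have hGr := B.mem_regularGraphs.mp hG
  have hGr' := B.mem_regularGraphs.mp hG'
  have hzim : (FE.zz E η).im = η := by simp [FE.zz]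
  have hz : 0 < (FE.zz E η).im := by rw [hzim]; exact hη
  -- the exceptional set
  set D : Finset (Fin n) := Finset.univ.filter fun v => G.neighborSet v ≠ G'.neighborSet v with hD
  have hDcard : D.card ≤ k := by
    have : {v : Fin n | G.neighborSet v ≠ G'.neighborSet v}.ncard = D.card := by
      rw [← Set.ncard_coe_finset]
      congr 1
      ext v
      simp [hD]
    rw [← this]
    exact hnear
  have hadj : ∀ x y, (adj G') x y ≠ (adj G) x y → x ∈ D ∧ y ∈ D := by
    intro x y hxy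
    have hne : ¬ (G.Adj x y ↔ G'.Adj x y) := by
      intro h
      apply hxy
      simp only [adj, SimpleGraph.adjMatrix_apply]
      by_cases h1 : G.Adj x y
      · rw [if_pos h1, if_pos (h.mp h1)]
      · rw [if_neg h1, if_neg (fun h2 => h1 (h.mpr h2))]
    refine ⟨Finset.mem_filter.mpr ⟨Finset.mem_univ _, fun h => hne ?_⟩,
      Finset.mem_filter.mpr ⟨Finset.mem_univ _, fun h => hne ?_⟩⟩
    · rw [← SimpleGraph.mem_neighborSet, ← SimpleGraph.mem_neighborSet, h]
    · rw [G.adj_comm, G'.adj_comm, ← SimpleGraph.mem_neighborSet, ← SimpleGraph.mem_neighborSet, h]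
  obtain ⟨u, hu0, husum, hu⟩ := cmp_of_support (adj_isHermitian G) (adj_isHermitian G') hz D hadj
  rw [hzim] at husum
  -- the sums over the stars
  have hcard : ((B.stars d G).card : ℝ) = d.factorial * n := card_stars_pos hGr
  have hcard' : ((B.stars d G').card : ℝ) = d.factorial * n := card_stars_pos hGr'
  have hfpos : (0 : ℝ) < d.factorial := by exact_mod_cast d.factorial_pos
  have hdiff : |∑ t ∈ B.stars d G, FE.dev (FE.one G t) (FE.zz E η) -
      ∑ t ∈ B.stars d G', FE.dev (FE.one G' t) (FE.zz E η)| ≤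
      d.factorial * ((k : ℝ) + 3 * ((d : ℝ) + 1) ^ 2 * (2 * (k : ℝ) ^ 2) / η) := by
    rw [B.sum_stars, B.sum_stars, ← Finset.sum_sub_distrib]
    refine (Finset.abs_sum_le_sum_abs _ _).trans ?_
    have hv : ∀ v, |∑ l ∈ B.ords d G v, FE.dev (FE.one G (v, l)) (FE.zz E η) -
        ∑ l ∈ B.ords d G' v, FE.dev (FE.one G' (v, l)) (FE.zz E η)| ≤
        (if v ∈ D then (d.factorial : ℝ) else 0) + ∑ l ∈ B.ords d G v,
          3 * ((d : ℝ) + 1) * ∑ o : Option (Fin d), u (B.pos (v, l) o) := by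
      intro v
      have hnn : 0 ≤ ∑ l ∈ B.ords d G v,
          3 * ((d : ℝ) + 1) * ∑ o : Option (Fin d), u (B.pos (v, l) o) :=
        Finset.sum_nonneg fun l _ => mul_nonneg (by positivity)
          (Finset.sum_nonneg fun o _ => hu0 _)
      by_cases hvD : v ∈ D
      · rw [if_pos hvD]
        have h1 : ∀ (H : SimpleGraph (Fin n)), B.Reg d H →
            0 ≤ ∑ l ∈ B.ords d H v, FE.dev (FE.one H (v, l)) (FE.zz E η) ∧
            ∑ l ∈ B.ords d H v, FE.dev (FE.one H (v, l)) (FE.zz E η) ≤ d.factorial := by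
          intro H hH
          refine ⟨Finset.sum_nonneg fun l _ => dev_nonneg _ _, ?_⟩
          calc ∑ l ∈ B.ords d H v, FE.dev (FE.one H (v, l)) (FE.zz E η) ≤
                ∑ l ∈ B.ords d H v, (1 : ℝ) := Finset.sum_le_sum fun l _ => dev_le_one _ _
            _ = d.factorial := by rw [Finset.sum_const, B.card_ords hH, nsmul_eq_mul, mul_one]
        have hA := h1 G hGr
        have hB := h1 G' hGr'
        have : |∑ l ∈ B.ords d G v, FE.dev (FE.one G (v, l)) (FE.zz E η) -
            ∑ l ∈ B.ords d G' v, FE.dev (FE.one G' (v, l)) (FE.zz E η)| ≤ d.factorial := by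
          rw [abs_le]
          constructor <;> linarith [hA.1, hA.2, hB.1, hB.2]
        linarith
      · rw [if_neg hvD, zero_add]
        have hN : G.neighborSet v = G'.neighborSet v := by
          by_contra h
          exact hvD (Finset.mem_filter.mpr ⟨Finset.mem_univ _, h⟩)
        have hords : B.ords d G' v = B.ords d G v := by
          ext l
          rw [B.mem_ords, B.mem_ords]
          have : ∀ w, G.Adj v w ↔ G'.Adj v w := fun w => by
            rw [← SimpleGraph.mem_neighborSet, ← SimpleGraph.mem_neighborSet, hN]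
          simp only [this]
        rw [hords, ← Finset.sum_sub_distrib]
        refine (Finset.abs_sum_le_sum_abs _ _).trans (Finset.sum_le_sum fun l _ => ?_)
        exact dev_diff hu (v, l)
    refine (Finset.sum_le_sum fun v _ => hv v).trans ?_
    rw [Finset.sum_add_distrib, ← B.sum_stars (fun t => 3 * ((d : ℝ) + 1) *
      ∑ o : Option (Fin d), u (B.pos t o)), ← Finset.mul_sum, Finset.sum_comm]
    simp only [B.sum_stars_pos hGr]
    rw [Finset.sum_const, Finset.card_univ, Fintype.card_option, Fintype.card_fin, nsmul_eq_mul,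
      Finset.sum_ite_mem, Finset.univ_inter, Finset.sum_const, nsmul_eq_mul]
    have h2 : (D.card : ℝ) ≤ k := by exact_mod_cast hDcard
    have h3 : ∑ v, u v ≤ 2 * (k : ℝ) ^ 2 / η := by
      refine husum.trans ?_
      gcongr
    have h4 : (0 : ℝ) ≤ D.card := by positivity
    push_cast
    calc (D.card : ℝ) * d.factorial +
          3 * ((d : ℝ) + 1) * (((d : ℝ) + 1) * (d.factorial * ∑ v, u v))
        = d.factorial * ((D.card : ℝ) + 3 * ((d : ℝ) + 1) ^ 2 * ∑ v, u v) := by ring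
      _ ≤ d.factorial * ((k : ℝ) + 3 * ((d : ℝ) + 1) ^ 2 * (2 * (k : ℝ) ^ 2 / η)) := by gcongr
      _ = _ := by ring
  rw [FE.VV, FE.VV, avg, avg, hcard, hcard', ← sub_div, abs_div,
    abs_of_pos (mul_pos hfpos hnR), div_le_div_iff₀ (mul_pos hfpos hnR) (mul_pos hnR hη)]
  calc |∑ t ∈ B.stars d G, FE.dev (FE.one G t) (FE.zz E η) -
        ∑ t ∈ B.stars d G', FE.dev (FE.one G' t) (FE.zz E η)| * (n * η)
      ≤ d.factorial * ((k : ℝ) + 3 * ((d : ℝ) + 1) ^ 2 * (2 * (k : ℝ) ^ 2) / η) * (n * η) := by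
        gcongr
    _ = (k * η + 3 * ((d : ℝ) + 1) ^ 2 * (2 * (k : ℝ) ^ 2)) * (d.factorial * n) := by
        field_simp
    _ ≤ _ := by
        refine mul_le_mul_of_nonneg_right ?_ (mul_pos hfpos hnR).le
        have : (k : ℝ) * η ≤ k * 1 := mul_le_mul_of_nonneg_left hη1 (by positivity)
        linarith

end Vale.Agent.P156.H558
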